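import Vale.Agent.P166F.GG
import Vale.Agent.P157.Low.GGFluct

/-!
The fluctuation of an observable averaged over its own coefficient.
-/

namespace Vale.Agent.P166F.Low.GGAvg

open MeasureTheory ProbabilityTheory
open scoped RealInnerProductSpace

set_option linter.unusedSectionVars false

/-- The uniform law on the unit interval. -/
noncomputable def uLaw : Measure ℝ := volume.restrict (Set.Icc (0 : ℝ) 1)

instance : IsProbabilityMeasure uLaw := ⟨by simp [uLaw]⟩

/-- A bounded monotone function gains little over a short shift, on average. -/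
lemma integral_shift {G : ℝ → ℝ} (hG : Monotone G) {M : ℝ}
    (hM : ∀ u, -(1 / 2) ≤ u → u ≤ 3 / 2 → |G u| ≤ M) {η : ℝ} (hη : 0 ≤ η) (hη2 : η ≤ 1 / 2) :
    Integrable (fun u => G (u + η) - G (u - η)) uLaw ∧
      ∫ u, (G (u + η) - G (u - η)) ∂uLaw ≤ 4 * M * η := by
  have hp : Monotone fun u => G (u + η) := fun a b h => hG (by linarith)
  have hm : Monotone fun u => G (u - η) := fun a b h => hG (by linarith)
  have hI : IntervalIntegrable (fun u => G (u + η) - G (u - η)) volume 0 1 :=
    hp.intervalIntegrable.sub hm.intervalIntegrable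
  refine ⟨(intervalIntegrable_iff_integrableOn_Icc_of_le zero_le_one).1 hI, ?_⟩
  rw [uLaw, integral_Icc_eq_integral_Ioc, ← intervalIntegral.integral_of_le zero_le_one,
    intervalIntegral.integral_sub hp.intervalIntegrable hm.intervalIntegrable,
    intervalIntegral.integral_comp_add_right G η, intervalIntegral.integral_comp_sub_right G η]
  have hi : ∀ c d, IntervalIntegrable G volume c d := fun c d => hG.intervalIntegrable
  rw [← intervalIntegral.integral_add_adjacent_intervals (hi (0 + η) (1 - η)) (hi (1 - η) (1 + η)),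
    ← intervalIntegral.integral_add_adjacent_intervals (hi (0 - η) (0 + η)) (hi (0 + η) (1 - η))]
  have e1 : ∫ t in (1 - η)..(1 + η), G t ≤ 2 * η * M :=
    (intervalIntegral.integral_mono_on (by linarith) (hi _ _) intervalIntegrable_const
      (g := fun _ => M) fun t ht =>
        (abs_le.1 (hM t (by linarith [ht.1]) (by linarith [ht.2]))).2).trans_eq (by
          rw [intervalIntegral.integral_const, smul_eq_mul]; ring)
  have e2 : 2 * η * -M ≤ ∫ t in (0 - η)..(0 + η), G t := by
    refine le_trans (le_of_eq ?_) (intervalIntegral.integral_mono_on (by linarith)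
      intervalIntegrable_const (hi _ _) (f := fun _ => -M) fun t ht =>
        (abs_le.1 (hM t (by linarith [ht.1]) (by linarith [ht.2]))).1)
    rw [intervalIntegral.integral_const, smul_eq_mul]; ring
  linarith

variable {J : Type} [Fintype J] [DecidableEq J] {P : ℕ} (S : Sys J) (s : ℝ)

/-- The fluctuation of one observable. -/
noncomputable def fl (i : CIdx J P) (y : CIdx J P → ℝ) : ℝ :=
  ∫ z, Gibbs.gmean (GG.hw S s y z) (fun x => |GG.obs S s i z x - GG.obsMean S s y i|) ∂GG.dlaw S P

variable {S s}

lemma fl_nonneg (i : CIdx J P) (y : CIdx J P → ℝ) : 0 ≤ fl S s i y :=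
  integral_nonneg fun _ => Finset.sum_nonneg fun x _ => mul_nonneg (Gibbs.pw_pos _ x).le (abs_nonneg _)

lemma abs_gmean_obs_le (i : CIdx J P) (y : CIdx J P → ℝ) (z : GG.Dis S P) :
    |Gibbs.gmean (GG.hw S s y z) (GG.obs S s i z)| ≤ GG.obsBd s z := by
  rw [← Gibbs.gav_marginal (n := 1) _ (0 : Fin 1)]
  exact Gibbs.abs_gav_le _ fun a => GG.abs_obs_le s i z (a 0)

lemma abs_obsMean_le (i : CIdx J P) (y : CIdx J P → ℝ) :
    |GG.obsMean S s y i| ≤ ∫ z, GG.obsBd (S := S) (P := P) s z ∂GG.dlaw S P := by
  rw [← Real.norm_eq_abs]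
  exact norm_integral_le_of_norm_le (GG.integrable_obsBd s)
    (Filter.Eventually.of_forall fun z => (Real.norm_eq_abs _).le.trans (abs_gmean_obs_le i y z))

lemma fl_le (i : CIdx J P) (y : CIdx J P → ℝ) :
    fl S s i y ≤ 2 * ∫ z, GG.obsBd (S := S) (P := P) s z ∂GG.dlaw S P := by
  set m := GG.obsMean S s y i
  have hm := abs_obsMean_le (S := S) (s := s) i y
  have hi := GG.integrable_gmean_of (S := S) s y (f := fun z x => |GG.obs S s i z x - m|)
    (fun x => ((GG.measurable_obs s i x).sub_const _).abs)
    ((GG.integrable_obsBd s).fun_add (integrable_const |m|)) fun z x => by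
      rw [abs_abs]; exact (abs_sub _ _).trans (add_le_add (GG.abs_obs_le s i z x) le_rfl)
  refine (integral_mono hi ((GG.integrable_obsBd s).fun_add (integrable_const |m|)) fun z => ?_).trans ?_
  · calc Gibbs.gmean (GG.hw S s y z) (fun x => |GG.obs S s i z x - m|)
        ≤ ∑ x, Gibbs.pw (GG.hw S s y z) x * (GG.obsBd s z + |m|) := Finset.sum_le_sum fun x _ =>
          mul_le_mul_of_nonneg_left ((abs_sub _ _).trans (add_le_add (GG.abs_obs_le s i z x) le_rfl))
            (Gibbs.pw_pos _ x).le
      _ = _ := by rw [← Finset.sum_mul, Gibbs.sum_pw, one_mul]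
  · rw [integral_add (GG.integrable_obsBd s) (integrable_const _), integral_const, probReal_univ, one_smul]
    linarith

lemma hw_eq_sum (y : CIdx J P → ℝ) (z : GG.Dis S P) (x : S.X) :
    GG.hw S s y z x = S.logw z.1 x + ∑ i, y i * GG.obs S s i z x := by
  simp only [GG.hw, Sys.ham, Fintype.sum_sum_type, GG.obs, Finset.mul_sum, mul_left_comm s]

lemma measurable_hw_joint (x : S.X) :
    Measurable fun p : (CIdx J P → ℝ) × GG.Dis S P => GG.hw S s p.1 p.2 x := by
  simp only [hw_eq_sum]
  exact ((S.measW x).comp (measurable_fst.comp measurable_snd)).add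
    (Finset.measurable_sum _ fun i _ => ((measurable_pi_apply i).comp measurable_fst).mul
      ((GG.measurable_obs s i x).comp measurable_snd))

lemma measurable_pw_joint (a : S.X) :
    Measurable fun p : (CIdx J P → ℝ) × GG.Dis S P => Gibbs.pw (GG.hw S s p.1 p.2) a := by
  simp only [Gibbs.pw, Gibbs.zsum]
  exact (measurable_hw_joint a).exp.div (Finset.measurable_sum _ fun b _ => (measurable_hw_joint b).exp)

lemma measurable_obsMean (i : CIdx J P) : Measurable fun y => GG.obsMean S s y i := by
  have h : Measurable fun p : (CIdx J P → ℝ) × GG.Dis S P =>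
      Gibbs.gmean (GG.hw S s p.1 p.2) (GG.obs S s i p.2) := by
    simp only [Gibbs.gmean]
    exact Finset.measurable_sum _ fun a _ =>
      (measurable_pw_joint a).mul ((GG.measurable_obs s i a).comp measurable_snd)
  exact (h.stronglyMeasurable.integral_prod_right' (ν := GG.dlaw S P)).measurable

lemma measurable_fl (i : CIdx J P) : Measurable (fl S s i) := by
  have h : Measurable fun p : (CIdx J P → ℝ) × GG.Dis S P =>
      Gibbs.gmean (GG.hw S s p.1 p.2) fun x => |GG.obs S s i p.2 x - GG.obsMean S s p.1 i| := by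
    simp only [Gibbs.gmean]
    exact Finset.measurable_sum _ fun a _ => (measurable_pw_joint a).mul
      (((GG.measurable_obs s i a).comp measurable_snd).sub ((measurable_obsMean i).comp measurable_fst)).abs
  exact (h.stronglyMeasurable.integral_prod_right' (ν := GG.dlaw S P)).measurable

/-- The mean observable increases along its coefficient. -/
lemma obsMean_mono (i : CIdx J P) (y : CIdx J P → ℝ) {t : ℝ} (ht : 0 ≤ t) :
    GG.obsMean S s y i ≤ GG.obsMean S s (y + Pi.single i t) i := by
  rcases eq_or_lt_of_le ht with rfl | h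
  · simp
  have h1 := GG.press_tangent (S := S) s y i t
  have h2 := GG.press_tangent (S := S) s (y + Pi.single i t) i (-t)
  rw [add_assoc, ← Pi.single_add, add_neg_cancel, Pi.single_zero, add_zero] at h2
  exact le_of_mul_le_mul_left (a := t) (by linarith) h

/-- Changes of the mean log-sum against the mean observable. -/
lemma press_step (i : CIdx J P) (y : CIdx J P → ℝ) (r : ℝ) :
    S.press P s (y + Pi.single i r) - S.press P s y ≤ r * GG.obsMean S s (y + Pi.single i r) i := by
  have h2 := GG.press_tangent (S := S) s (y + Pi.single i r) i (-r)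
  rw [add_assoc, ← Pi.single_add, add_neg_cancel, Pi.single_zero, add_zero] at h2
  linarith

lemma abs_obsMean_scale (hs : 0 ≤ s) (i : CIdx J P) {y : CIdx J P → ℝ} (hy : |y i| ≤ 2 * s) :
    |GG.obsMean S s y i| ≤ 4 * s := by
  cases i with
  | inl e =>
    rw [GG.obsMean_eq, abs_mul]
    have hb : ∀ {n : ℕ} (a b : Fin n), |S.expect s y (fun R : OArr J n =>
        monom (fun j => (e.1 j : ℕ)) (R a b))| ≤ 1 := fun a b =>
      GG.abs_expect_le fun ω x => GG.abs_monom_le _ fun j => GG.abs_gram_le ω x a b j
    have h2 := (abs_sub _ _).trans (add_le_add (hb (n := 1) 0 0) (hb (n := 2) 0 1))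
    nlinarith [abs_nonneg (y (Sum.inl e))]
  | inr j =>
    refine le_trans ?_ (show s ≤ 4 * s by linarith)
    rw [GG.obsMean, ← Real.norm_eq_abs]
    refine (norm_integral_le_of_norm_le (g := fun _ => s) (integrable_const s)
      (Filter.Eventually.of_forall fun z => ?_)).trans (le_of_eq (by simp))
    rw [Real.norm_eq_abs, ← Gibbs.gav_marginal (n := 1) _ (0 : Fin 1)]
    refine Gibbs.abs_gav_le _ fun a => ?_
    simp only [GG.obs, abs_mul, abs_pow, abs_norm, abs_of_nonneg hs]
    exact mul_le_of_le_one_right hs (pow_le_one₀ (norm_nonneg _) (S.norm z.1 (a 0) j))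

/-- The fluctuation at a point against increments of the mean observable. -/
lemma fl_point (i : CIdx J P) (y : CIdx J P → ℝ) {r c δ σ : ℝ} (hr : 0 < r) (hc : 0 < c) (hδ : 0 < δ)
    (hdev : ∀ t, |t| ≤ δ → S.dev P s (y + Pi.single i t) ≤ σ) :
    fl S s i y ≤
      (GG.obsMean S s (y + Pi.single i r) i - GG.obsMean S s (y + Pi.single i (-r)) i) / (2 * c * r) +
        (c / 2 + c * r ^ 2 / 2 * (4 * ∫ z, GG.obsBd (S := S) (P := P) s z ^ 2 ∂GG.dlaw S P)) +
        ((GG.obsMean S s (y + Pi.single i δ) i - GG.obsMean S s (y + Pi.single i (-δ)) i) +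
          3 * σ / δ) := by
  set m := fun t => GG.obsMean S s (y + Pi.single i t) i with hmdef
  set H := fun z x => GG.obs S s i z x with hH
  set mz := fun z => Gibbs.gmean (GG.hw S s y z) (GG.obs S s i z) with hmz
  set V := fun z => Gibbs.gvar (GG.hw S s y z) (GG.obs S s i z) with hVdef
  set W := fun z => V z / (1 + r ^ 2 * V z) with hWdef
  have hV0 : ∀ z, 0 ≤ V z := fun z => Gibbs.gvar_nonneg _ _
  have hVi : Integrable V (GG.dlaw S P) := GG.integrable_gvar s y i
  have hden : ∀ z, 0 < 1 + r ^ 2 * V z := fun z => by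
    have := mul_nonneg (sq_nonneg r) (hV0 z); linarith
  have hWi : Integrable W (GG.dlaw S P) := hVi.mono'
    (hVi.aemeasurable.div (aemeasurable_const.add (hVi.aemeasurable.const_mul _))).aestronglyMeasurable
    (Filter.Eventually.of_forall fun z => by
      rw [Real.norm_eq_abs, abs_of_nonneg (div_nonneg (hV0 z) (hden z).le)]
      exact div_le_self (hV0 z) (by linarith [mul_nonneg (sq_nonneg r) (hV0 z)]))
  set L := fun (t : ℝ) z => Real.log (Gibbs.zsum fun x => GG.hw S s y z x + t * GG.obs S s i z x) with hL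
  have hLi : ∀ t, Integrable (L t) (GG.dlaw S P) := fun t => GG.integrable_logZ_shift s y i t
  have hL0 := GG.integrable_logZ (S := S) (P := P) s y
  have hpr : ∀ t, S.press P s (y + Pi.single i t) = ∫ z, L t z ∂GG.dlaw S P := fun t =>
    GG.press_shift s y i t
  -- second differences
  have hW : ∫ z, W z ∂GG.dlaw S P ≤ (m r - m (-r)) / r := by
    have hi : ∫ z, r ^ 2 * W z ∂GG.dlaw S P ≤
        ∫ z, (L r z + L (-r) z - 2 * Real.log (Gibbs.zsum (GG.hw S s y z))) ∂GG.dlaw S P :=
      integral_mono (hWi.const_mul _) (((hLi r).fun_add (hLi (-r))).sub' (hL0.const_mul 2))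
        fun z => le_trans (le_of_eq (by simp only [hWdef, hVdef]; ring)) (Gibbs.second_diff_ge _ _ r)
    rw [integral_const_mul, integral_sub ((hLi r).fun_add (hLi (-r))) (hL0.const_mul 2),
      integral_add (hLi r) (hLi (-r)), integral_const_mul, ← GG.press_eq, ← hpr, ← hpr] at hi
    have a1 := press_step (S := S) (s := s) i y r
    have a2 := press_step (S := S) (s := s) i y (-r)
    rw [le_div_iff₀ hr]
    refine le_of_mul_le_mul_left (a := r) ?_ hr
    simp only [hmdef]
    linarith
  have hV2 : ∫ z, V z ∂GG.dlaw S P ≤ 4 * ∫ z, GG.obsBd (S := S) (P := P) s z ^ 2 ∂GG.dlaw S P := by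
    rw [← integral_const_mul]
    exact integral_mono hVi ((GG.integrable_obsBd_sq s).const_mul 4) fun z =>
      Gibbs.gvar_le _ _ fun x => GG.abs_obs_le s i z x
  -- thermal
  have hT : ∀ z, Gibbs.gmean (GG.hw S s y z) (fun x => |H z x - mz z|) ≤
      W z / (2 * c) + (c / 2 + c * r ^ 2 / 2 * V z) := fun z => by
    have hk := hden z
    set K := c * (1 + r ^ 2 * V z)
    have hK : 0 < K := mul_pos hc hk
    calc Gibbs.gmean (GG.hw S s y z) (fun x => |H z x - mz z|)
        ≤ ∑ x, Gibbs.pw (GG.hw S s y z) x * ((H z x - mz z) ^ 2 / (2 * K) + K / 2) := by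
          refine Finset.sum_le_sum fun x _ => mul_le_mul_of_nonneg_left ?_ (Gibbs.pw_pos _ x).le
          set d := H z x - mz z
          rw [div_add_div _ _ (by positivity) two_ne_zero, le_div_iff₀ (by positivity), ← sq_abs d]
          nlinarith [sq_nonneg (|d| - K)]
      _ = V z / (2 * K) + K / 2 := by
          simp only [mul_add, Finset.sum_add_distrib, ← Finset.sum_mul, Gibbs.sum_pw, one_mul,
            mul_div_assoc', ← Finset.sum_div]
          rfl
      _ = _ := by simp only [hWdef, K]; field_simp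
  have iT := GG.integrable_gmean_of (S := S) s y (f := fun z x => |H z x - mz z|)
    (fun x => ((GG.measurable_obs s i x).sub (GG.measurable_gmean_obs s y i)).abs)
    ((GG.integrable_obsBd s).const_mul 2) fun z x => by
      rw [abs_abs, two_mul]
      exact (abs_sub _ _).trans (add_le_add (GG.abs_obs_le s i z x) (abs_gmean_obs_le i y z))
  have i2 : Integrable (fun z => c / 2 + c * r ^ 2 / 2 * V z) (GG.dlaw S P) :=
    (integrable_const _).fun_add (hVi.const_mul _)
  have hTi := integral_mono iT ((hWi.div_const (2 * c)).fun_add i2) hT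
  rw [integral_add (hWi.div_const _) i2, integral_add (integrable_const _) (hVi.const_mul _),
    integral_div, integral_const_mul, integral_const, probReal_univ, one_smul] at hTi
  -- disorder
  have hD : ∀ z, δ * |mz z - m 0| ≤ δ * (m δ - m (-δ)) +
      (|L δ z - S.press P s (y + Pi.single i δ)| + |L (-δ) z - S.press P s (y + Pi.single i (-δ))| +
        |Real.log (Gibbs.zsum (GG.hw S s y z)) - S.press P s y|) := fun z => by
    have a1 := Gibbs.tangent_le (GG.hw S s y z) (GG.obs S s i z) δ
    have a2 := Gibbs.tangent_le (GG.hw S s y z) (GG.obs S s i z) (-δ)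
    have b1 := press_step (S := S) (s := s) i y δ
    have b2 := press_step (S := S) (s := s) i y (-δ)
    have m0 : m 0 = GG.obsMean S s y i := by simp [hmdef]
    have o1 : m 0 ≤ m δ := by rw [m0]; exact obsMean_mono i y hδ.le
    have o2 : m (-δ) ≤ m 0 := by
      have := obsMean_mono (S := S) (s := s) i (y + Pi.single i (-δ)) hδ.le
      rw [add_assoc, ← Pi.single_add, neg_add_cancel, Pi.single_zero, add_zero] at this
      rw [m0]; exact this
    have c1 := le_abs_self (L δ z - S.press P s (y + Pi.single i δ))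
    have c2 := le_abs_self (L (-δ) z - S.press P s (y + Pi.single i (-δ)))
    have c0 := neg_le_abs (Real.log (Gibbs.zsum (GG.hw S s y z)) - S.press P s y)
    simp only [hL, hmz, hmdef] at c1 c2 c0 o1 o2 m0 b1 b2 ⊢
    have e1 := abs_nonneg (Real.log (Gibbs.zsum fun x => GG.hw S s y z x + δ * GG.obs S s i z x) -
      S.press P s (y + Pi.single i δ))
    have e2 := abs_nonneg (Real.log (Gibbs.zsum fun x => GG.hw S s y z x + -δ * GG.obs S s i z x) -
      S.press P s (y + Pi.single i (-δ)))
    rcases abs_cases (Gibbs.gmean (GG.hw S s y z) (GG.obs S s i z) -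
      GG.obsMean S s (y + Pi.single i 0) i) with ⟨e, -⟩ | ⟨e, -⟩ <;> rw [e] <;> nlinarith
  have i3 : ∀ t, Integrable (fun z => |L t z - S.press P s (y + Pi.single i t)|) (GG.dlaw S P) :=
    fun t => ((hLi t).sub' (integrable_const _)).abs
  have i4 : Integrable (fun z => |Real.log (Gibbs.zsum (GG.hw S s y z)) - S.press P s y|) (GG.dlaw S P) :=
    (hL0.sub' (integrable_const _)).abs
  have i5 : Integrable (fun z => |mz z - m 0|) (GG.dlaw S P) :=
    ((GG.integrable_obs_gmean s y i).sub' (integrable_const _)).abs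
  have hDi := integral_mono (i5.const_mul δ)
    ((integrable_const (δ * (m δ - m (-δ)))).fun_add (((i3 δ).fun_add (i3 (-δ))).fun_add i4)) hD
  rw [integral_const_mul, integral_add (integrable_const _) (((i3 δ).fun_add (i3 (-δ))).fun_add i4),
    integral_add ((i3 δ).fun_add (i3 (-δ))) i4, integral_add (i3 δ) (i3 (-δ)), integral_const,
    probReal_univ, one_smul] at hDi
  have d1 : ∀ t, |t| ≤ δ → ∫ z, |L t z - S.press P s (y + Pi.single i t)| ∂GG.dlaw S P ≤ σ := fun t ht => by
    refine le_trans (le_of_eq ?_) (hdev t ht)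
    rw [GG.dev_eq]
    refine integral_congr_ae (Filter.Eventually.of_forall fun z => ?_)
    simp only [hL, funext fun x => GG.hw_shift (S := S) s y i t z x]
  have d0 : ∫ z, |Real.log (Gibbs.zsum (GG.hw S s y z)) - S.press P s y| ∂GG.dlaw S P ≤ σ := by
    have := hdev 0 (by simpa using hδ.le)
    rwa [Pi.single_zero, add_zero, GG.dev_eq] at this
  have hD2 : ∫ z, |mz z - m 0| ∂GG.dlaw S P ≤ (m δ - m (-δ)) + 3 * σ / δ := by
    rw [show m δ - m (-δ) + 3 * σ / δ = (δ * (m δ - m (-δ)) + 3 * σ) / δ by field_simp,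
      le_div_iff₀ hδ]
    linarith [d1 δ (abs_of_pos hδ).le, d1 (-δ) (by rw [abs_neg]; exact (abs_of_pos hδ).le)]
  have m0 : m 0 = GG.obsMean S s y i := by simp [hmdef]
  have i6 := GG.integrable_gmean_of (S := S) s y (f := fun z x => |H z x - m 0|)
    (fun x => ((GG.measurable_obs s i x).sub_const _).abs)
    ((GG.integrable_obsBd s).fun_add (integrable_const |m 0|)) fun z x => by
      rw [abs_abs]; exact (abs_sub _ _).trans (add_le_add (GG.abs_obs_le s i z x) le_rfl)
  have hfin : fl S s i y ≤ ∫ z, (Gibbs.gmean (GG.hw S s y z) (fun x => |H z x - mz z|) + |mz z - m 0|)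
      ∂GG.dlaw S P := by
    simp only [fl, ← m0]
    refine integral_mono i6 (iT.fun_add i5) fun z => ?_
    calc Gibbs.gmean (GG.hw S s y z) (fun x => |H z x - m 0|)
        ≤ ∑ x, Gibbs.pw (GG.hw S s y z) x * (|H z x - mz z| + |mz z - m 0|) := Finset.sum_le_sum fun x _ =>
          mul_le_mul_of_nonneg_left (abs_sub_le _ _ _) (Gibbs.pw_pos _ x).le
      _ = _ := by
          simp only [mul_add, Finset.sum_add_distrib, ← Finset.sum_mul, Gibbs.sum_pw, one_mul]
          rfl
  rw [integral_add iT i5] at hfin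
  have hW2 : (∫ z, W z ∂GG.dlaw S P) / (2 * c) ≤ (m r - m (-r)) / (2 * c * r) := by
    calc (∫ z, W z ∂GG.dlaw S P) / (2 * c) ≤ (m r - m (-r)) / r / (2 * c) :=
          div_le_div_of_nonneg_right hW (by linarith)
      _ = _ := by field_simp
  have hV3 := mul_le_mul_of_nonneg_left hV2 (show 0 ≤ c * r ^ 2 / 2 by positivity)
  simp only [hmdef] at hW2 hD2 ⊢
  linarith

/-- The average over the coefficient. -/
theorem fl_line (hs : 0 < s) {σ : ℝ} (hσ : 1 ≤ σ) (hσs : 4 * Real.sqrt σ ≤ s) (i : CIdx J P)
    (y : CIdx J P → ℝ) (hy : ∀ k, 0 ≤ y k ∧ y k ≤ 2 * s)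
    (hdev : ∀ y : CIdx J P → ℝ, (∀ k, 0 ≤ y k ∧ y k ≤ 2 * s) → S.dev P s y ≤ σ) :
    ∫ u, fl S s i (Function.update y i (s / 2 + s * u)) ∂uLaw ≤ 25 * Real.sqrt σ := by
  classical
  set δ := Real.sqrt σ with hδdef
  have hδ1 : 1 ≤ δ := Real.one_le_sqrt.2 hσ
  have hδσ : δ ^ 2 = σ := Real.sq_sqrt (by linarith)
  set K2 := 4 * ∫ z, GG.obsBd (S := S) (P := P) s z ^ 2 ∂GG.dlaw S P
  have hK2 : 0 ≤ K2 := mul_nonneg (by norm_num) (integral_nonneg fun z => sq_nonneg _)
  set r := min δ (1 / (1 + K2)) with hrdef
  have hr : 0 < r := lt_min (by linarith) (by positivity)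
  have hrK : r ^ 2 * K2 ≤ 1 := by
    have h1 : r ≤ 1 / (1 + K2) := min_le_right _ _
    have h2 : r * (1 + K2) ≤ 1 := by
      rw [le_div_iff₀ (by linarith)] at h1; exact h1
    nlinarith
  set G := fun u => GG.obsMean S s (Function.update y i (s / 2 + s * u)) i with hGdef
  have hupd : ∀ u t, (Function.update y i (s / 2 + s * u) + Pi.single i t : CIdx J P → ℝ) =
      Function.update y i (s / 2 + s * (u + t / s)) := fun u t => by
    funext k
    by_cases hk : k = i
    · subst hk; simp; field_simp; ring
    · simp [hk]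
  have hG : Monotone G := fun a b hab => by
    have h := obsMean_mono (S := S) (s := s) i (Function.update y i (s / 2 + s * a))
      (mul_nonneg hs.le (sub_nonneg.2 hab))
    rw [hupd, show a + s * (b - a) / s = b by field_simp; ring] at h
    exact h
  have hM : ∀ u, -(1 / 2) ≤ u → u ≤ 3 / 2 → |G u| ≤ 4 * s := fun u h1 h2 =>
    abs_obsMean_scale hs.le i (by
      rw [Function.update_self, abs_le]; constructor <;> nlinarith)
  have hrs : r / s ≤ 1 / 2 := by
    rw [div_le_iff₀ hs]; linarith [min_le_left δ (1 / (1 + K2))]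
  have hds : δ / s ≤ 1 / 2 := by rw [div_le_iff₀ hs]; linarith
  obtain ⟨ir, hr'⟩ := integral_shift hG hM (η := r / s) (by positivity) hrs
  obtain ⟨id', hd'⟩ := integral_shift hG hM (η := δ / s) (by positivity) hds
  have hfi : Integrable (fun u => fl S s i (Function.update y i (s / 2 + s * u))) uLaw := by
    refine (integrable_const (2 * ∫ z, GG.obsBd (S := S) (P := P) s z ∂GG.dlaw S P)).mono'
      ((measurable_fl i).comp ((measurable_update y).comp (by fun_prop))).aestronglyMeasurable
      (Filter.Eventually.of_forall fun u => ?_)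
    rw [Real.norm_eq_abs, abs_of_nonneg (fl_nonneg _ _)]
    exact fl_le _ _
  have hae : ∀ᵐ u ∂uLaw, fl S s i (Function.update y i (s / 2 + s * u)) ≤
      (G (u + r / s) - G (u - r / s)) / (8 * r) + 4 +
        ((G (u + δ / s) - G (u - δ / s)) + 3 * σ / δ) := by
    filter_upwards [ae_restrict_mem (measurableSet_Icc (a := (0 : ℝ)) (b := 1))] with u hu
    have h := fl_point (S := S) (s := s) i (Function.update y i (s / 2 + s * u)) hr
      (c := 4) (by norm_num) (δ := δ) (σ := σ) (by linarith) fun t ht => hdev _ fun k => by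
        rw [hupd]
        by_cases hk : k = i
        · subst hk
          obtain ⟨t1, t2⟩ := abs_le.1 ht
          have hu1 := mul_nonneg hs.le hu.1
          have hu2 := mul_le_mul_of_nonneg_left hu.2 hs.le
          rw [Function.update_self, mul_add, mul_div_cancel₀ _ hs.ne']
          constructor <;> linarith
        · rw [Function.update_of_ne hk]; exact hy k
    simp only [hupd, neg_div, ← sub_eq_add_neg] at h
    simp only [hGdef]
    rw [show (2 : ℝ) * 4 * r = 8 * r by ring] at h
    linarith
  refine (integral_mono_ae hfi ((((ir.div_const _)).fun_add (integrable_const 4)).fun_add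
    (id'.fun_add (integrable_const _))) hae).trans ?_
  rw [integral_add ((ir.div_const _).fun_add (integrable_const _)) (id'.fun_add (integrable_const _)),
    integral_add (ir.div_const _) (integrable_const _), integral_add id' (integrable_const _),
    integral_div]
  simp only [integral_const, probReal_univ, one_smul]
  have a1 : (∫ u, (G (u + r / s) - G (u - r / s)) ∂uLaw) / (8 * r) ≤ 2 := by
    rw [div_le_iff₀ (by positivity)]
    refine hr'.trans (le_of_eq ?_)
    field_simp; ring
  have a2 : ∫ u, (G (u + δ / s) - G (u - δ / s)) ∂uLaw ≤ 16 * δ := by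
    refine hd'.trans (le_of_eq ?_)
    field_simp; ring
  have a3 : 3 * σ / δ = 3 * δ := by rw [← hδσ]; field_simp
  rw [a3]
  linarith

end Vale.Agent.P166F.Low.GGAvg
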